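import Vale.Agent.P302.F1Final

namespace Vale.Agent.Results.P302.A00000_Gap40747o31104

open Vale.Agent.P302

/-- There is a bin packing instance whose optimum exceeds the value of the configuration LP by at
least 40747/31104 = 1.31002... -/
theorem result : ∃ I : Multiset ℚ, IsInstance I ∧
    (40747 / 31104 : ℝ) ≤ (OPT I : ℝ) - LP I :=
  ⟨_, F1.isInstance, F1.gap⟩

end Vale.Agent.Results.P302.A00000_Gap40747o31104
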