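import Vale.Agent.P302.H86Final

namespace Vale.Agent.Results.P302.A0000_Gap311over243

open Vale.Agent.P302

/-- There is a bin packing instance whose optimum exceeds the value of the configuration LP by at
least 311/243 = 1.27983... -/
theorem result : ∃ I : Multiset ℚ, IsInstance I ∧
    (311 / 243 : ℝ) ≤ (OPT I : ℝ) - LP I :=
  ⟨_, H86.isInstance, H86.gap⟩

end Vale.Agent.Results.P302.A0000_Gap311over243
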