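import Vale.Agent.P302.H83Final

namespace Vale.Agent.Results.P302.A000_Gap307over243

open Vale.Agent.P302

/-- There is a bin packing instance whose optimum exceeds the value of the configuration LP by at
least 307/243 = 1.26337... -/
theorem result : ∃ I : Multiset ℚ, IsInstance I ∧
    (307 / 243 : ℝ) ≤ (OPT I : ℝ) - LP I :=
  ⟨_, H83.isInstance, H83.gap⟩

end Vale.Agent.Results.P302.A000_Gap307over243
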