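import Vale.Agent.P302.HInst

namespace Vale.Agent.Results.P302.A00_Gap89over72

open Vale.Agent.P302

/-- There is a bin packing instance (rational sizes in `(0,1]`, bins of capacity `1`) whose optimal
number of bins exceeds the value of the Gilmore-Gomory configuration LP by at least `89/72`. -/
theorem result :
    ∃ I : Multiset ℚ, IsInstance I ∧ (89 : ℝ) / 72 ≤ (OPT I : ℝ) - LP I :=
  ⟨mkInst capH itemsH, instH, gapH⟩

end Vale.Agent.Results.P302.A00_Gap89over72
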