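import Vale.Agent.P302.GInst

namespace Vale.Agent.Results.P302.A0_Gap11over9

open Vale.Agent.P302

/-- There is a bin packing instance (rational sizes in `(0,1]`, bins of capacity `1`) whose optimal
number of bins exceeds the value of the Gilmore-Gomory configuration LP by at least `11/9`. -/
theorem result :
    ∃ I : Multiset ℚ, IsInstance I ∧ (11 : ℝ) / 9 ≤ (OPT I : ℝ) - LP I :=
  ⟨mkInst capA itemsA, instA, gapA⟩

end Vale.Agent.Results.P302.A0_Gap11over9
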