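import Vale.Agent.P302.I65Final

namespace Vale.Agent.Results.P302.A2_Gap3121

open Vale.Agent.P302

/-- There is a bin packing instance whose optimum exceeds the value of the configuration LP by at
least 3121/2592 = 1.20408..., which is more than 6/5 and more than 77/64. -/
theorem result : ∃ I : Multiset ℚ, IsInstance I ∧
    (3121 / 2592 : ℝ) ≤ (OPT I : ℝ) - LP I :=
  ⟨_, I65.isInstance, I65.gap⟩

end Vale.Agent.Results.P302.A2_Gap3121
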